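import Crest.Agent.X212.Ext52.Seif

-- ▼ part X212/Cab39/Loc
section

/-!
# X212 / Cab39 (helper39), part 1: the local model of the (2,1)-cable in `Circle × ℂ`

* `ff (y,z) = z² - cut z · y` : its zero set is the cable `z² = y`, `ff = z²` for `3 ≤ ‖z‖`;
* `act u (y,z) = (u² y, u z)` : the Seifert circle action, `ff (act u v) = u² ff v`;
* `cA (x,w) = (x², x √(1 + w/x²))` : tube coordinates of the cable, `ff (cA (x,w)) = w`, inverse `cB`;
* `tP n v = act (dd v ^ n) v` : the twist along the cabling annulus (`dd` is `act`-invariant).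
-/

set_option autoImplicit false
set_option linter.unusedSectionVars false
set_option linter.style.haveILetI false

open Set Filter Topology Function TopologicalSpace Metric
open scoped ContDiff Manifold
open Crest.GeometryTopology.DehnSurgery Crest.Agent.X212.Glue52 Crest.Agent.X212.Ext52

noncomputable section

namespace Crest.Agent.X212.Cab39

/-! ### complex valued calculus on manifolds -/

section calcC

variable {E : Type*} [NormedAddCommGroup E] [NormedSpace ℝ E] {H : Type*} [TopologicalSpace H]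
  {I : ModelWithCorners ℝ E H} {M : Type*} [TopologicalSpace M] [ChartedSpace H M] {x : M}

theorem cmul {f g : M → ℂ} (hf : ContMDiffAt I 𝓘(ℝ, ℂ) ∞ f x) (hg : ContMDiffAt I 𝓘(ℝ, ℂ) ∞ g x) :
    ContMDiffAt I 𝓘(ℝ, ℂ) ∞ (fun y => f y * g y) x :=
  ((contDiff_mul (𝔸 := ℂ) (𝕜 := ℝ)).contMDiff _).comp x (hf.prodMk_space hg)

theorem ccoe {f : M → Circle} (hf : ContMDiffAt I (𝓡 1) ∞ f x) :
    ContMDiffAt I 𝓘(ℝ, ℂ) ∞ (fun y => (f y : ℂ)) x := (contMDiff_circle_coe _).comp x hf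

theorem creal {f : M → ℝ} (hf : ContMDiffAt I 𝓘(ℝ, ℝ) ∞ f x) :
    ContMDiffAt I 𝓘(ℝ, ℂ) ∞ (fun y => (f y : ℂ)) x :=
  (Complex.ofRealCLM.contDiff.contMDiff _).comp x hf

theorem czpow (n : ℤ) {f : M → Circle} (hf : ContMDiffAt I (𝓡 1) ∞ f x) :
    ContMDiffAt I (𝓡 1) ∞ (fun y => f y ^ n) x := (contMDiff_zpow n _).comp x hf

theorem cdir {f : M → ℂ} (hf : ContMDiffAt I 𝓘(ℝ, ℂ) ∞ f x) (h : f x ≠ 0) :
    ContMDiffAt I (𝓡 1) ∞ (fun y => dir (f y)) x := (contMDiffAt_dir h).comp x hf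

end calcC

theorem dir_coe (u : Circle) : dir (u : ℂ) = u := by simpa using dir_mul one_pos u

theorem dir_coe_mul (u : Circle) {z : ℂ} (h : z ≠ 0) : dir (u * z) = u * dir z := by
  rw [dir_mul_dir u.coe_ne_zero h, dir_coe]

theorem coe_dir_of_norm {z : ℂ} (h : ‖z‖ = 1) : (dir z : ℂ) = z := by
  simpa [h] using norm_mul_dir z

/-! ### the defining function -/

/-- the cut-off -/
def cut (z : ℂ) : ℝ := Real.smoothTransition ((9 - ‖z‖ ^ 2) / 5)

theorem contDiff_cut : ContDiff ℝ ∞ cut :=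
  Real.smoothTransition.contDiff.comp ((contDiff_const.sub (contDiff_norm_sq ℝ)).div_const 5)

theorem cut_one {z : ℂ} (h : ‖z‖ ≤ 2) : cut z = 1 :=
  Real.smoothTransition.one_of_one_le (by nlinarith [norm_nonneg z])

theorem cut_zero {z : ℂ} (h : 3 ≤ ‖z‖) : cut z = 0 :=
  Real.smoothTransition.zero_of_nonpos (by nlinarith)

theorem cut_nonneg (z : ℂ) : 0 ≤ cut z := Real.smoothTransition.nonneg _

theorem cut_le_one (z : ℂ) : cut z ≤ 1 := Real.smoothTransition.le_one _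

theorem cut_mul (u : Circle) (z : ℂ) : cut (u * z) = cut z := by
  rw [cut, norm_mul, Circle.norm_coe, one_mul, cut]

/-- the defining function of the cable -/
def ff (v : Circle × ℂ) : ℂ := v.2 * v.2 - cut v.2 * v.1

theorem contMDiff_ff : ContMDiff IT 𝓘(ℝ, ℂ) ∞ ff := fun v =>
  (cmul contMDiffAt_snd contMDiffAt_snd).sub
    (cmul (creal ((contDiff_cut.contMDiff _).comp v contMDiffAt_snd)) (ccoe contMDiffAt_fst))

theorem ff_near {v : Circle × ℂ} (h : ‖v.2‖ ≤ 2) : ff v = v.2 * v.2 - v.1 := by simp [ff, cut_one h]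

theorem ff_far {v : Circle × ℂ} (h : 3 ≤ ‖v.2‖) : ff v = v.2 * v.2 := by simp [ff, cut_zero h]

theorem norm_lt_of_ff {v : Circle × ℂ} (h : ‖ff v‖ < 1) : ‖v.2‖ < 2 := by
  have h1 : ‖v.2 * v.2‖ ≤ ‖ff v‖ + ‖(cut v.2 : ℂ) * v.1‖ := by
    have := norm_add_le (ff v) ((cut v.2 : ℂ) * v.1)
    rwa [ff, sub_add_cancel] at this
  rw [norm_mul, norm_mul, Circle.norm_coe, Complex.norm_real, Real.norm_of_nonneg (cut_nonneg _)] at h1
  nlinarith [cut_le_one v.2, norm_nonneg v.2]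

theorem ff_ne_of_le {v : Circle × ℂ} (h : 2 ≤ ‖v.2‖) : ff v ≠ 0 := fun e =>
  (norm_lt_of_ff (by rw [e, norm_zero]; exact one_pos)).not_ge h

theorem ff_core (y : Circle) : ff (y, 0) = -y := by simp [ff_near (v := (y, 0))]

theorem dir_ff_far {v : Circle × ℂ} (h : 3 ≤ ‖v.2‖) : dir (ff v) = dir v.2 ^ 2 := by
  have h0 : v.2 ≠ 0 := norm_pos_iff.1 (by linarith)
  rw [ff_far h, dir_mul_dir h0 h0, sq]

/-! ### the circle action -/

/-- the Seifert action -/
def act (u : Circle) (v : Circle × ℂ) : Circle × ℂ := (u ^ 2 * v.1, u * v.2)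

theorem act_mul (u u' : Circle) (v : Circle × ℂ) : act u (act u' v) = act (u * u') v := by
  simp only [act, mul_pow, Circle.coe_mul, mul_assoc]

theorem act_one (v : Circle × ℂ) : act 1 v = v := by simp [act]

@[simp] theorem norm_act (u : Circle) (v : Circle × ℂ) : ‖(act u v).2‖ = ‖v.2‖ := by
  rw [act, norm_mul, Circle.norm_coe, one_mul]

theorem ff_act (u : Circle) (v : Circle × ℂ) : ff (act u v) = (u ^ 2 : Circle) * ff v := by
  simp only [ff, act, cut_mul, Circle.coe_mul, sq]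
  ring

theorem ff_act_ne (u : Circle) {v : Circle × ℂ} (h : ff v ≠ 0) : ff (act u v) ≠ 0 := by
  rw [ff_act]; exact mul_ne_zero (Circle.coe_ne_zero _) h

theorem cact {E : Type*} [NormedAddCommGroup E] [NormedSpace ℝ E] {H : Type*} [TopologicalSpace H]
    {I : ModelWithCorners ℝ E H} {M : Type*} [TopologicalSpace M] [ChartedSpace H M] {x : M}
    {u : M → Circle} {v : M → Circle × ℂ} (hu : ContMDiffAt I (𝓡 1) ∞ u x)
    (hv : ContMDiffAt I IT ∞ v x) : ContMDiffAt I IT ∞ (fun y => act (u y) (v y)) x :=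
  ((hu.pow 2).mul hv.fst).prodMk (cmul (ccoe hu) hv.snd)

/-! ### the tube of the cable -/

/-- the principal square root -/
def rt (w : ℂ) : ℂ := Complex.exp (Complex.log w / 2)

theorem rt_ne (w : ℂ) : rt w ≠ 0 := Complex.exp_ne_zero _

theorem rt_mul_self {w : ℂ} (h : w ≠ 0) : rt w * rt w = w := by
  rw [rt, ← Complex.exp_add, add_halves, Complex.exp_log h]

theorem rt_one : rt 1 = 1 := by simp [rt]

theorem contDiffAt_rt {w : ℂ} (h : w ∈ Complex.slitPlane) : ContDiffAt ℝ ∞ rt w :=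
  (((Complex.contDiffAt_log h).div_const 2).cexp).restrict_scalars ℝ

theorem one_add_slit {w : ℂ} (h : ‖w‖ < 1) (u : Circle) : 1 + w * (u : Circle) ∈ Complex.slitPlane :=
  Complex.mem_slitPlane_of_norm_lt_one (by rwa [norm_mul, Circle.norm_coe, mul_one])

theorem crt {E : Type*} [NormedAddCommGroup E] [NormedSpace ℝ E] {H : Type*} [TopologicalSpace H]
    {I : ModelWithCorners ℝ E H} {M : Type*} [TopologicalSpace M] [ChartedSpace H M] {x : M}
    {w : M → ℂ} {u : M → Circle} (hw : ContMDiffAt I 𝓘(ℝ, ℂ) ∞ w x) (hu : ContMDiffAt I (𝓡 1) ∞ u x)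
    (h : ‖w x‖ < 1) : ContMDiffAt I 𝓘(ℝ, ℂ) ∞ (fun y => rt (1 + w y * u y)) x :=
  ContMDiffAt.comp (g := rt) (f := fun y => 1 + w y * u y) x
    (contDiffAt_rt (one_add_slit h _)).contMDiffAt (contMDiffAt_const.add (cmul hw (ccoe hu)))

/-- tube coordinates around the cable -/
def cA (a : Circle × ℂ) : Circle × ℂ := (a.1 ^ 2, a.1 * rt (1 + a.2 * ((a.1 ^ 2)⁻¹ : Circle)))

/-- the inverse of `cA` -/
def cB (v : Circle × ℂ) : Circle × ℂ := (dir (v.2 * (rt (1 + ff v * (v.1⁻¹ : Circle)))⁻¹), ff v)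

theorem cA_sq {a : Circle × ℂ} (h : ‖a.2‖ < 1) : (cA a).2 * (cA a).2 - (cA a).1 = a.2 := by
  have h1 := rt_mul_self (Complex.slitPlane_ne_zero (one_add_slit h (a.1 ^ 2)⁻¹))
  have h2 := a.1.coe_ne_zero
  simp only [cA]
  rw [mul_mul_mul_comm, h1]
  simp only [Circle.coe_inv, sq, Circle.coe_mul]
  field_simp
  ring

theorem ff_cA {a : Circle × ℂ} (h : ‖a.2‖ < 1) : ff (cA a) = a.2 := by
  have h1 := cA_sq h
  have h2 : ‖(cA a).2 * (cA a).2‖ ≤ ‖a.2‖ + ‖((cA a).1 : ℂ)‖ := by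
    rw [← h1]; simpa using norm_add_le ((cA a).2 * (cA a).2 - (cA a).1) (cA a).1
  rw [norm_mul, Circle.norm_coe] at h2
  rw [ff_near (by nlinarith [norm_nonneg (cA a).2]), h1]

theorem cB_cA {a : Circle × ℂ} (h : ‖a.2‖ < 1) : cB (cA a) = a := by
  refine Prod.ext ?_ (ff_cA h)
  simp only [cB, ff_cA h]
  simp only [cA]
  rw [mul_inv_cancel_right₀ (rt_ne _), dir_coe]

theorem cA_cB {v : Circle × ℂ} (h : ‖ff v‖ < 1) : cA (cB v) = v := by
  set s := rt (1 + ff v * (v.1⁻¹ : Circle)) with hs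
  have h1 : s * s = 1 + ff v * (v.1⁻¹ : Circle) :=
    rt_mul_self (Complex.slitPlane_ne_zero (one_add_slit h _))
  have h2 : s ≠ 0 := rt_ne _
  have h3 := v.1.coe_ne_zero
  have h4 : (v.2 * s⁻¹) * (v.2 * s⁻¹) = v.1 := by
    rw [ff_near (norm_lt_of_ff h).le, Circle.coe_inv] at h1
    field_simp at h1 ⊢
    linear_combination -h1
  have h5 : ‖v.2 * s⁻¹‖ = 1 := by
    have := congrArg norm h4
    rw [norm_mul, Circle.norm_coe] at this
    nlinarith [norm_nonneg (v.2 * s⁻¹)]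
  have h6 : dir (v.2 * s⁻¹) ^ 2 = v.1 :=
    Circle.ext (by rw [sq, Circle.coe_mul, coe_dir_of_norm h5, h4])
  refine Prod.ext h6 ?_
  simp only [cA, cB, ← hs, h6, coe_dir_of_norm h5]
  exact inv_mul_cancel_right₀ h2 _

theorem contMDiffAt_cA {a : Circle × ℂ} (h : ‖a.2‖ < 1) : ContMDiffAt IT IT ∞ cA a :=
  (contMDiffAt_fst.pow 2).prodMk (cmul (ccoe contMDiffAt_fst)
    (crt contMDiffAt_snd (contMDiffAt_fst.pow 2).inv h))

theorem snd_ne_of_ff {v : Circle × ℂ} (h : ‖ff v‖ < 1) : v.2 ≠ 0 := fun e => by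
  rw [show v = (v.1, 0) from Prod.ext rfl e, ff_core, norm_neg, Circle.norm_coe] at h
  exact lt_irrefl _ h

theorem contMDiffAt_cB {v : Circle × ℂ} (h : ‖ff v‖ < 1) : ContMDiffAt IT IT ∞ cB v := by
  have h1 : ContMDiffAt IT 𝓘(ℝ, ℂ) ∞ (fun w : Circle × ℂ => rt (1 + ff w * (w.1⁻¹ : Circle))) v :=
    crt (contMDiff_ff v) contMDiffAt_fst.inv h
  have h2 : ContMDiffAt IT 𝓘(ℝ, ℂ) ∞ (fun w : Circle × ℂ => (rt (1 + ff w * (w.1⁻¹ : Circle)))⁻¹) v :=
    (contDiffAt_inv ℝ (rt_ne _)).contMDiffAt.comp v h1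
  exact (cdir (cmul contMDiffAt_snd h2) (mul_ne_zero (snd_ne_of_ff h) (inv_ne_zero (rt_ne _)))).prodMk
    (contMDiff_ff v)

theorem ld_cA {a : Circle × ℂ} (h : ‖a.2‖ < 1) : IsLocalDiffeomorphAt IT IT ∞ cA a :=
  ld_of_inverse (g := cB) (s := {a | ‖a.2‖ < 1}) (t := {v | ‖ff v‖ < 1})
    (isOpen_lt continuous_snd.norm continuous_const)
    (isOpen_lt contMDiff_ff.continuous.norm continuous_const) h
    (fun _ hb => (contMDiffAt_cA hb).contMDiffWithinAt)
    (fun _ hb => (contMDiffAt_cB hb).contMDiffWithinAt)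
    (fun b hb => show ‖ff (cA b)‖ < 1 by rwa [ff_cA hb]) (fun _ hb => hb)
    (fun _ hb => cB_cA hb) (fun _ hb => cA_cB hb)

/-- the tube of the cable, on the whole solid torus -/
def cT (a : Circle × ℂ) : Circle × ℂ := cA (shr a)

theorem ld_cT : IsLocalDiffeomorph IT IT ∞ cT := fun a =>
  (ld_shr a).comp IT (Circle × ℂ) (ld_cA (norm_shr_lt a))

theorem cT_injective : Injective cT := fun a b e => shr_injective <| by
  rw [← cB_cA (norm_shr_lt a), ← cB_cA (norm_shr_lt b)]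
  exact congrArg cB e

theorem ff_cT (a : Circle × ℂ) : ff (cT a) = (shr a).2 := ff_cA (norm_shr_lt a)

theorem ff_cT_eq_zero {a : Circle × ℂ} : ff (cT a) = 0 ↔ a.2 = 0 := by rw [ff_cT, shr_eq_zero]

theorem dir_ff_cT {a : Circle × ℂ} (h : a.2 ≠ 0) : dir (ff (cT a)) = dir a.2 := by
  rw [ff_cT, dir_shr h]

theorem norm_cT_lt (a : Circle × ℂ) : ‖(cT a).2‖ < 2 :=
  norm_lt_of_ff (by rw [ff_cT]; exact norm_shr_lt a)

theorem cT_core (x : Circle) : cT (x, 0) = (x ^ 2, (x : ℂ)) := by simp [cT, cA, shr, rt_one]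

theorem exists_shr {a : Circle × ℂ} (h : ‖a.2‖ < 1) : ∃ b, shr b = a :=
  ⟨(a.1, OpenPartialHomeomorph.univUnitBall.symm a.2), Prod.ext rfl
    (OpenPartialHomeomorph.univUnitBall.right_inv (mem_ball_zero_iff.2 h))⟩

theorem mem_range_cT {v : Circle × ℂ} : v ∈ range cT ↔ ‖ff v‖ < 1 := by
  refine ⟨?_, fun h => ?_⟩
  · rintro ⟨a, rfl⟩
    rw [ff_cT]; exact norm_shr_lt a
  · obtain ⟨b, e⟩ := exists_shr (a := cB v) h
    exact ⟨b, by rw [cT, e, cA_cB h]⟩

theorem exists_cT_core {v : Circle × ℂ} (h : ff v = 0) : ∃ x, cT (x, 0) = v := by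
  obtain ⟨a, rfl⟩ := mem_range_cT.2 (show ‖ff v‖ < 1 by simp [h])
  exact ⟨a.1, congrArg cT (Prod.ext rfl (ff_cT_eq_zero.1 h).symm)⟩

theorem act_cA (u : Circle) (a : Circle × ℂ) :
    act u (cA a) = cA (u * a.1, (u ^ 2 : Circle) * a.2) := by
  have e : ((u ^ 2 : Circle) : ℂ) * a.2 * (((u * a.1) ^ 2)⁻¹ : Circle) = a.2 * ((a.1 ^ 2)⁻¹ : Circle) := by
    have := u.coe_ne_zero
    have := a.1.coe_ne_zero
    simp only [sq, Circle.coe_inv, Circle.coe_mul]
    field_simp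
  simp only [act, cA, e]
  rw [mul_pow, Circle.coe_mul, mul_assoc]

theorem shr_coe_mul (x u : Circle) (w : ℂ) : shr (x, u * w) = (x, u * (shr (x, w)).2) := by
  refine Prod.ext rfl ?_
  simp only [shr_snd, norm_mul, Circle.norm_coe, one_mul]
  ring

theorem act_cT (u : Circle) (a : Circle × ℂ) :
    act u (cT a) = cT (u * a.1, (u ^ 2 : Circle) * a.2) := by
  rw [cT, cT, act_cA, shr_coe_mul]
  rfl

/-! ### the twist along the cabling annulus -/

/-- the invariant angle -/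
def dd (v : Circle × ℂ) : Circle := dir (ff v) * v.1⁻¹

theorem dd_act (u : Circle) {v : Circle × ℂ} (h : ff v ≠ 0) : dd (act u v) = dd v := by
  rw [dd, ff_act, dir_coe_mul _ h, dd]
  simp only [act, mul_inv]
  rw [mul_mul_mul_comm, mul_inv_cancel, one_mul]

theorem contMDiffAt_dd {v : Circle × ℂ} (h : ff v ≠ 0) : ContMDiffAt IT (𝓡 1) ∞ dd v :=
  (cdir (contMDiff_ff v) h).mul contMDiffAt_fst.inv

/-- the twist -/
def tP (n : ℤ) (v : Circle × ℂ) : Circle × ℂ := act (dd v ^ n) v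

theorem ff_tP (n : ℤ) {v : Circle × ℂ} : ff (tP n v) ≠ 0 ↔ ff v ≠ 0 := by
  rw [tP, ff_act, mul_ne_zero_iff, and_iff_right (Circle.coe_ne_zero _)]

theorem tP_tP (m n : ℤ) {v : Circle × ℂ} (h : ff v ≠ 0) : tP m (tP n v) = tP (m + n) v := by
  rw [tP, tP, dd_act _ h, act_mul, tP, zpow_add]

theorem tP_zero (v : Circle × ℂ) : tP 0 v = v := by rw [tP, zpow_zero, act_one]

theorem tP_neg (n : ℤ) {v : Circle × ℂ} (h : ff v ≠ 0) : tP (-n) (tP n v) = v := by
  rw [tP_tP _ _ h, neg_add_cancel, tP_zero]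

theorem tP_neg' (n : ℤ) {v : Circle × ℂ} (h : ff v ≠ 0) : tP n (tP (-n) v) = v := by
  rw [tP_tP _ _ h, add_neg_cancel, tP_zero]

theorem contMDiffAt_tP (n : ℤ) {v : Circle × ℂ} (h : ff v ≠ 0) : ContMDiffAt IT IT ∞ (tP n) v :=
  cact (czpow n (contMDiffAt_dd h)) contMDiffAt_id

theorem isOpen_ff_ne : IsOpen {v | ff v ≠ 0} := isOpen_ne.preimage contMDiff_ff.continuous

theorem ld_tP (n : ℤ) {v : Circle × ℂ} (h : ff v ≠ 0) : IsLocalDiffeomorphAt IT IT ∞ (tP n) v :=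
  ld_of_inverse (g := tP (-n)) isOpen_ff_ne isOpen_ff_ne h
    (fun _ hb => (contMDiffAt_tP n hb).contMDiffWithinAt)
    (fun _ hb => (contMDiffAt_tP (-n) hb).contMDiffWithinAt) (fun _ hb => (ff_tP n).2 hb)
    (fun _ hb => (ff_tP (-n)).2 hb) (fun _ hb => tP_neg n hb) (fun _ hb => tP_neg' n hb)

theorem zp (x y : Circle) (n k l : ℤ) : (x ^ k * y ^ l) ^ n = x ^ (k * n) * y ^ (l * n) := by
  rw [mul_zpow, ← zpow_mul, ← zpow_mul]

theorem mul_polar (u : Circle) (z : ℂ) : u * z = (‖z‖ : ℂ) * (u * dir z : Circle) := by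
  rw [Circle.coe_mul, mul_left_comm, norm_mul_dir]

/-- far from the cable the twist is a monomial map -/
theorem tP_far (n : ℤ) {v : Circle × ℂ} (h : 3 ≤ ‖v.2‖) :
    tP n v = mon (4 * n) (1 - 2 * n) (1 + 2 * n) (-n) v := by
  have e : dd v = dir v.2 ^ (2 : ℤ) * v.1 ^ (-1 : ℤ) := by
    rw [dd, dir_ff_far h, zpow_neg_one, zpow_ofNat]
  refine Prod.ext ?_ ?_
  · simp only [tP, act, mon, e]
    rw [← zpow_ofNat, zp, zp, mul_assoc, ← zpow_add_one]
    congr 2 <;> ring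
  · simp only [tP, act, mon, e]
    rw [mul_polar, zp, mul_right_comm, ← zpow_add_one]
    congr 4 <;> ring

/-- in the tube of the cable the twist is a monomial map -/
theorem tP_cT (n : ℤ) {a : Circle × ℂ} (h : a.2 ≠ 0) :
    tP n (cT a) = cT (mon n (1 - 2 * n) (1 + 2 * n) (-4 * n) a) := by
  have e : dd (cT a) = dir a.2 ^ (1 : ℤ) * a.1 ^ (-2 : ℤ) := by
    rw [dd, dir_ff_cT h, zpow_one, zpow_neg, zpow_ofNat]
    rfl
  rw [tP, act_cT, e]
  refine congrArg cT (Prod.ext ?_ ?_)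
  · simp only [mon]
    rw [zp, mul_assoc, ← zpow_add_one]
    congr 2 <;> ring
  · simp only [mon]
    rw [mul_polar, ← zpow_ofNat, zp, zp, mul_right_comm, ← zpow_add_one]
    congr 4 <;> ring

end Crest.Agent.X212.Cab39
end
end

-- ▼ part X212/Cab39/Defs

/-!
# X212 / Cab39 (helper39), part 2: the (2,1)-cable as a knot datum; `C_1 = K_{1/4}`

* `cable k : KD`, tube `k.τ ∘ cT`, angle `thC k` (`= dir ∘ ff` in the tube of `k`, `θ²` outside);
* `flip k : KD` (longitude reversed), `flipRep` : `Fill (flip k) (p, q) ≃ Fill k (p, -q)`;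
* `dif k : Fill (cable k) σ1 ≃ₘ Fill k σ4`, the identity off `τ (‖z‖ < 3)` (`dif_ie`);
* `exists_dif` : the same for all filling data of slopes `1/1`, `1/4`; `exists_dif_neg` : slopes
  `-1/1`, `-1/4` for the (2,-1)-cable `flip (cable (flip k))`.
-/

set_option autoImplicit false
set_option linter.unusedSectionVars false
set_option linter.style.haveILetI false

open Set Filter Topology Function TopologicalSpace Metric
open scoped ContDiff Manifold
open Crest.GeometryTopology.DehnSurgery Crest.Agent.X212.Glue52 Crest.Agent.X212.Ext52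

noncomputable section

namespace Crest.Agent.X212.Cab39

/-! ### functions on the exterior read on the sphere -/

open Classical in
/-- extension by a junk value of a function on an open subset -/
def ex {U : Opens S3} {Z : Type*} (g : U → Z) (z : Z) (x : S3) : Z := if h : x ∈ U then g ⟨x, h⟩ else z

theorem ex_mem {U : Opens S3} {Z : Type*} (g : U → Z) (z : Z) {x : S3} (h : x ∈ U) :
    ex g z x = g ⟨x, h⟩ := dif_pos h

theorem ex_val {U : Opens S3} {Z : Type*} (g : U → Z) (z : Z) : ex g z ∘ Subtype.val = g :=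
  funext fun x => ex_mem g z x.2

section

variable {E : Type*} [NormedAddCommGroup E] [NormedSpace ℝ E] {H : Type*} [TopologicalSpace H]
  {J : ModelWithCorners ℝ E H} {Z : Type*} [TopologicalSpace Z] [ChartedSpace H Z] {U : Opens S3}
  {g : U → Z} {z : Z} {x : S3}

theorem contMDiffAt_ex (hx : x ∈ U) (h : ContMDiffAt (𝓡 3) J ∞ g ⟨x, hx⟩) :
    ContMDiffAt (𝓡 3) J ∞ (ex g z) x :=
  contMDiffAt_of_comp (ld_val U ⟨x, hx⟩) (by rwa [ex_val])

theorem ld_ex (hx : x ∈ U) (h : IsLocalDiffeomorphAt (𝓡 3) J ∞ g ⟨x, hx⟩) :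
    IsLocalDiffeomorphAt (𝓡 3) J ∞ (ex g z) x :=
  ld_of_comp (ld_val U ⟨x, hx⟩) (by rwa [ex_val])

end

/-- the open tube of radius `r` -/
def otube (t : Tube) (r : ℝ) : Set S3 := t.τ '' {v | ‖v.2‖ < r}

/-- the closed tube of radius `r` -/
def ctube (t : Tube) (r : ℝ) : Set S3 := t.τ '' {v | ‖v.2‖ ≤ r}

theorem isOpen_otube (t : Tube) (r : ℝ) : IsOpen (otube t r) :=
  t.isOpenEmbedding.isOpenMap _ (isOpen_lt continuous_snd.norm continuous_const)

theorem isClosed_ctube (t : Tube) (r : ℝ) : IsClosed (ctube t r) := by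
  have := (t.isCompact_tube r).isClosed
  rwa [← Tube.tube_eq] at this

theorem otube_subset (t : Tube) (r : ℝ) : otube t r ⊆ ctube t r :=
  image_mono fun _ (h : _ < r) => h.le

theorem τ_mem_otube {t : Tube} {r : ℝ} {v : Circle × ℂ} : t.τ v ∈ otube t r ↔ ‖v.2‖ < r :=
  t.inj.mem_set_image

theorem τ_mem_ctube {t : Tube} {r : ℝ} {v : Circle × ℂ} : t.τ v ∈ ctube t r ↔ ‖v.2‖ ≤ r :=
  t.inj.mem_set_image

theorem mem_Ext_of_otube {t : Tube} {r : ℝ} (hr : 0 < r) {x : S3} (h : x ∉ otube t r) : x ∈ t.Ext := by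
  by_cases h' : x ∈ range t.τ
  · obtain ⟨v, rfl⟩ := h'
    refine t.τ_mem_Ext.2 fun e => h (τ_mem_otube.2 ?_)
    rwa [e, norm_zero]
  · exact t.mem_Ext_of_not_mem_range h'

theorem extend_far {t : Tube} {Z : Type*} {F : Circle × ℂ → Z} {G : S3 → Z} {r : ℝ}
    (h : ∀ v, r ≤ ‖v.2‖ → F v = G (t.τ v)) {x : S3} (hx : x ∉ otube t r) : extend t.τ F G x = G x := by
  by_cases h' : ∃ v, t.τ v = x
  · obtain ⟨v, rfl⟩ := h'
    rw [t.inj.extend_apply, h v (not_lt.1 fun hv => hx (τ_mem_otube.2 hv))]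
  · exact extend_apply' _ _ _ h'

theorem extend_ev {t : Tube} {Z : Type*} {F : Circle × ℂ → Z} {G : S3 → Z} {r : ℝ}
    (h : ∀ v, r ≤ ‖v.2‖ → F v = G (t.τ v)) {x : S3} (hx : x ∉ range t.τ) :
    extend t.τ F G =ᶠ[𝓝 x] G := by
  filter_upwards [(isClosed_ctube t r).isOpen_compl.mem_nhds fun h => hx (image_subset_range _ _ h)]
    with y hy
  exact extend_far h fun h' => hy (otube_subset t r h')

/-! ### the cable -/

/-- the tube of the (2,1)-cable -/
def cabT (t : Tube) : Tube := ⟨t.τ ∘ cT, ld_comp t.ld ld_cT, t.inj.comp cT_injective⟩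

theorem cabT_τ (t : Tube) (a : Circle × ℂ) : (cabT t).τ a = t.τ (cT a) := rfl

theorem τ_mem_cab {t : Tube} {v : Circle × ℂ} : t.τ v ∈ (cabT t).Ext ↔ ff v ≠ 0 := by
  refine ⟨fun h e => ?_, fun h => ?_⟩
  · obtain ⟨x, rfl⟩ := exists_cT_core e
    exact (cabT t).τ_mem_Ext.1 h rfl
  · by_cases h' : t.τ v ∈ range (cabT t).τ
    · obtain ⟨a, e⟩ := h'
      obtain rfl : cT a = v := t.inj e
      exact (cabT t).τ_mem_Ext.2 (mt ff_cT_eq_zero.2 h)
    · exact (cabT t).mem_Ext_of_not_mem_range h'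

theorem mem_cab_of_otube {t : Tube} {r : ℝ} (hr : 2 ≤ r) {x : S3} (h : x ∉ otube t r) :
    x ∈ (cabT t).Ext := by
  refine (cabT t).mem_Ext_of_not_mem_range ?_
  rintro ⟨a, rfl⟩
  exact h (τ_mem_otube.2 ((norm_cT_lt a).trans_le hr))

theorem not_mem_otube {t : Tube} (r : ℝ) {x : S3} (h : x ∉ range t.τ) : x ∉ otube t r :=
  fun h' => h (image_subset_range _ _ h')

variable (k : KD)

/-- the angle of `k` on the sphere -/
def thK : S3 → Circle := ex k.θ 1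

theorem thK_τ {v : Circle × ℂ} (h : v.2 ≠ 0) : thK k (k.τ v) = dir v.2 :=
  (ex_mem _ _ (k.τ_mem_Ext.2 h)).trans (k.θτ ⟨v, h⟩)

theorem contMDiffAt_thK {x : S3} (h : x ∈ k.Ext) : ContMDiffAt (𝓡 3) (𝓡 1) ∞ (thK k) x :=
  contMDiffAt_ex h (k.smθ _)

/-- the angle of the cable on the sphere -/
def thC : S3 → Circle := extend k.τ (fun v => dir (ff v)) fun x => thK k x ^ 2

theorem thC_τ (v : Circle × ℂ) : thC k (k.τ v) = dir (ff v) := k.inj.extend_apply _ _ _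

theorem thC_match (v : Circle × ℂ) (h : 3 ≤ ‖v.2‖) : dir (ff v) = thK k (k.τ v) ^ 2 := by
  rw [dir_ff_far h, thK_τ k (norm_pos_iff.1 (by linarith))]

theorem thC_far {x : S3} (h : x ∉ otube k.toTube 3) : thC k x = thK k x ^ 2 :=
  extend_far (thC_match k) h

theorem contMDiffAt_thC {x : S3} (h : x ∈ (cabT k.toTube).Ext) :
    ContMDiffAt (𝓡 3) (𝓡 1) ∞ (thC k) x := by
  by_cases h' : x ∈ range k.τ
  · obtain ⟨v, rfl⟩ := h'
    exact k.patch_in (cdir (contMDiff_ff v) (τ_mem_cab.1 h))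
  · exact ((contMDiffAt_thK k (k.mem_Ext_of_not_mem_range h')).pow 2).congr_of_eventuallyEq
      (extend_ev (thC_match k) h')

/-- THE (2,1)-CABLE -/
def cable : KD where
  toTube := cabT k.toTube
  θ x := thC k x
  smθ x := (contMDiffAt_thC k x.2).comp x contMDiff_subtype_val.contMDiffAt
  θτ a := (thC_τ k _).trans (dir_ff_cT a.2)

theorem cable_toTube : (cable k).toTube = cabT k.toTube := rfl

theorem cable_θ (x : (cable k).Ext) : (cable k).θ x = thC k x := rfl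

theorem cable_core (x : Circle) : (cable k).τ (x, 0) = k.τ (x ^ 2, (x : ℂ)) := congrArg k.τ (cT_core x)

/-! ### `C_1 = K_{1/4}` -/

/-- slope `1/1` -/
def σ1 : FillingData := ⟨1, 1, 1, 0, by norm_num⟩

/-- slope `1/4` -/
def σ4 : FillingData := ⟨1, 4, 1, 3, by norm_num⟩

/-- conjugation -/
def cj : (Circle × ℂ) ≃ₘ^∞⟮IT, IT⟯ (Circle × ℂ) := coreD 1 (-1) 0 (.inl rfl) (.inr rfl)

/-- the reparametrisation of the core -/
def cD : (Circle × ℂ) ≃ₘ^∞⟮IT, IT⟯ (Circle × ℂ) := coreD 1 (-1) 3 (.inl rfl) (.inr rfl)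

variable (t : Tube)

/-- the map on the sphere minus the cable -/
def g1 : S3 → Fill t σ4 :=
  extend t.τ (fun v => t.it σ4 (cj (tP 1 v))) (ex (t.ie σ4) (t.it σ4 (1, 0)))

/-- the map on the filling torus -/
def g2 (a : Circle × ℂ) : Fill t σ4 := t.it σ4 (cj (cT (cD a)))

theorem g1_τ (v : Circle × ℂ) : g1 t (t.τ v) = t.it σ4 (cj (tP 1 v)) := t.inj.extend_apply _ _ _

theorem g1_match (v : Circle × ℂ) (h : 3 ≤ ‖v.2‖) :
    t.it σ4 (cj (tP 1 v)) = ex (t.ie σ4) (t.it σ4 (1, 0)) (t.τ v) := by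
  have h0 : v.2 ≠ 0 := norm_pos_iff.1 (by linarith)
  rw [ex_mem _ _ (t.τ_mem_Ext.2 h0), eq_comm, t.ie_eq_it, tP_far 1 h]
  refine ⟨mon_ne _ _ _ _ (mon_ne _ _ _ _ h0), congrArg t.τ ?_⟩
  show mon 4 3 1 1 (mon 0 1 (-1) 0 _) = v
  rw [mon_mon _ _ _ _ _ _ _ _ (mon_ne _ _ _ _ h0), mon_mon _ _ _ _ _ _ _ _ h0]
  exact mon_id v

theorem g1_far {x : S3} (h : x ∉ otube t 3) :
    g1 t x = t.ie σ4 ⟨x, mem_Ext_of_otube three_pos h⟩ :=
  (extend_far (g1_match t) h).trans (ex_mem _ _ _)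

theorem ld_g1 {x : S3} (h : x ∈ (cabT t).Ext) : IsLocalDiffeomorphAt (𝓡 3) (𝓡 3) ∞ (g1 t) x := by
  by_cases h' : x ∈ range t.τ
  · obtain ⟨v, rfl⟩ := h'
    refine ld_of_comp (t.ld v) ?_
    rw [g1, extend_comp t.inj]
    exact (ld_tP 1 (τ_mem_cab.1 h)).comp _ _ (ld_comp (t.two σ4).ld_inr cj.isLocalDiffeomorph _)
  · exact ld_congr (ld_ex (t.mem_Ext_of_not_mem_range h') ((t.two σ4).ld_inl _))
      (extend_ev (g1_match t) h')

theorem g1_ne {x : S3} (h : x ∉ range t.τ) (a : Circle × ℂ) : g1 t x ≠ t.it σ4 a := by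
  rw [g1_far t (not_mem_otube 3 h)]
  exact fun e => h ⟨_, ((t.ie_eq_it σ4).1 e).2⟩

theorem g1_inj {x y : S3} (hx : x ∈ (cabT t).Ext) (hy : y ∈ (cabT t).Ext) (e : g1 t x = g1 t y) :
    x = y := by
  by_cases h : x ∈ range t.τ <;> by_cases h' : y ∈ range t.τ
  · obtain ⟨v, rfl⟩ := h
    obtain ⟨w, rfl⟩ := h'
    rw [g1_τ, g1_τ] at e
    rw [← tP_neg 1 (τ_mem_cab.1 hx), cj.injective ((t.two σ4).inr_injective e),
      tP_neg 1 (τ_mem_cab.1 hy)]
  · obtain ⟨v, rfl⟩ := h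
    exact (g1_ne t h' _ (e.symm.trans (g1_τ t v))).elim
  · obtain ⟨v, rfl⟩ := h'
    exact (g1_ne t h _ (e.trans (g1_τ t v))).elim
  · rw [g1_far t (not_mem_otube 3 h), g1_far t (not_mem_otube 3 h')] at e
    exact congrArg Subtype.val ((t.two σ4).inl_injective e)

theorem g1_g2 {a : Circle × ℂ} (h : a.2 ≠ 0) : g1 t (t.τ (cT (mon 1 0 1 1 a))) = g2 t a := by
  rw [g1_τ, tP_cT 1 (mon_ne _ _ _ _ h), mon_mon _ _ _ _ _ _ _ _ h]
  rfl

theorem g_surj (y : Fill t σ4) : (∃ x : (cabT t).Ext, g1 t x = y) ∨ ∃ a, g2 t a = y := by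
  have key : ∀ w, (∃ x : (cabT t).Ext, g1 t x = t.it σ4 w) ∨ ∃ a, g2 t a = t.it σ4 w := fun w => by
    obtain ⟨v, rfl⟩ := cj.surjective w
    by_cases h : ff v = 0
    · obtain ⟨x, rfl⟩ := exists_cT_core h
      obtain ⟨a, e⟩ := cD.surjective (x, 0)
      exact .inr ⟨a, by rw [g2, show cD a = (x, 0) from e]; rfl⟩
    · exact .inl ⟨⟨t.τ (tP (-1) v), τ_mem_cab.2 ((ff_tP _).2 h)⟩, by rw [g1_τ, tP_neg' 1 h]; rfl⟩
  refine (t.two σ4).ind (fun x => ?_) key y
  by_cases h : x.1 ∈ range t.τ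
  · obtain ⟨v, e⟩ := h
    have h0 : v.2 ≠ 0 := t.τ_mem_Ext.1 (e ▸ x.2)
    rw [show (t.two σ4).inl x = _ from
      (congrArg (t.ie σ4) (Subtype.ext e.symm)).trans (t.ie_τE' σ4 ⟨v, h0⟩)]
    exact key _
  · exact .inl ⟨⟨x.1, mem_cab_of_otube (r := 3) (by norm_num) (not_mem_otube 3 h)⟩,
      g1_far t (not_mem_otube 3 h)⟩

theorem g_rel (x : (cabT t).Ext) (a : Circle × ℂ) :
    g1 t x = g2 t a ↔ a.2 ≠ 0 ∧ t.τ (cT (mon 1 0 1 1 a)) = x := by
  refine ⟨fun e => ?_, fun h => by rw [← h.2, g1_g2 t h.1]⟩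
  have h : a.2 ≠ 0 := by
    obtain ⟨v, hv⟩ : x.1 ∈ range t.τ := not_not.1 fun h => g1_ne t h _ e
    rw [← hv, g1_τ] at e
    have h1 := (ff_tP 1).2 (τ_mem_cab.1 (hv ▸ x.2))
    rw [cj.injective ((t.two σ4).inr_injective e), Ne, ff_cT_eq_zero] at h1
    exact mt (mon_eq_zero _ _ _ _ a).2 h1
  exact ⟨h, g1_inj t (τ_mem_cab.2 (mt ff_cT_eq_zero.1 (mon_ne _ _ _ _ h))) x.2
    ((g1_g2 t h).trans e.symm)⟩

/-- `+1` surgery on the (2,1)-cable is `1/4` surgery on the companion -/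
def dif : Fill (cabT t) σ1 ≃ₘ^∞⟮𝓡 3, 𝓡 3⟯ Fill t σ4 :=
  ((cabT t).two σ1).diffeo (fun x => g1 t x) (g2 t) (fun x => ld_restrict (ld_g1 t x.2))
    (ld_comp (t.two σ4).ld_inr (ld_comp cj.isLocalDiffeomorph
      (ld_comp (g := cT) ld_cT cD.isLocalDiffeomorph)))
    (fun x y e => Subtype.ext (g1_inj t x.2 y.2 e))
    ((t.two σ4).inr_injective.comp (cj.injective.comp (cT_injective.comp cD.injective))) (g_surj t)
    fun x a => (g_rel t x a).trans
      (((cabT t).ie_eq_it σ1).symm.trans ((cabT t).two σ1).inl_eq_inr)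

theorem dif_ie' (x : (cabT t).Ext) : dif t ((cabT t).ie σ1 x) = g1 t x := by
  unfold dif
  exact Two.diffeo_inl _ x

theorem dif_it (a : Circle × ℂ) : dif t ((cabT t).it σ1 a) = g2 t a := by
  unfold dif
  exact Two.diffeo_inr _ a

/-- `g` is the identity on the part of the sphere outside `s` -/
def IdOff (s : Set S3) {t' t : Tube} {σ' σ : FillingData} (g : Fill t' σ' → Fill t σ) : Prop :=
  ∀ x ∉ s, ∃ (h' : x ∈ t'.Ext) (h : x ∈ t.Ext), g (t'.ie σ' ⟨x, h'⟩) = t.ie σ ⟨x, h⟩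

theorem dif_ie : IdOff (otube t 3) (dif t) := fun x hx =>
  ⟨mem_cab_of_otube (by norm_num) hx, _, (dif_ie' t _).trans (g1_far t hx)⟩

variable {t}

/-- the two fillings are diffeomorphic by a map which is the identity outside `s` -/
def DifOff (s : Set S3) (t' : Tube) (σ' : FillingData) (t : Tube) (σ : FillingData) : Prop :=
  ∃ g : Fill t' σ' ≃ₘ^∞⟮𝓡 3, 𝓡 3⟯ Fill t σ, IdOff s g

section

variable {s : Set S3} {t' t'' : Tube} {σ σ' σ'' : FillingData}

theorem DifOff.trans (h : DifOff s t'' σ'' t' σ') (h' : DifOff s t' σ' t σ) : DifOff s t'' σ'' t σ := by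
  obtain ⟨g, hg⟩ := h
  obtain ⟨g', hg'⟩ := h'
  refine ⟨g.trans g', fun x hx => ?_⟩
  obtain ⟨h1, h2, e⟩ := hg x hx
  obtain ⟨h3, h4, e'⟩ := hg' x hx
  exact ⟨h1, h4, (congrArg g' e).trans e'⟩

theorem DifOff.symm (h : DifOff s t' σ' t σ) : DifOff s t σ t' σ' := by
  obtain ⟨g, hg⟩ := h
  refine ⟨g.symm, fun x hx => ?_⟩
  obtain ⟨h1, h2, e⟩ := hg x hx
  exact ⟨h2, h1, by rw [← e, Diffeomorph.symm_apply_apply]⟩

theorem difOff_rep (R : Tube.Rep t' t σ' σ) (hs : ∀ x ∉ s, x ∈ t.Ext) : DifOff s t' σ' t σ :=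
  ⟨R.diffeo, fun x hx => ⟨R.ext.ge (hs x hx), hs x hx, R.diffeo_ie _⟩⟩

end

/-- CABLE, any filling data of slopes `1/1` and `1/4` -/
theorem exists_dif (t : Tube) {s1 s4 : FillingData} {ε δ : ℤ} (hε : ε = 1 ∨ ε = -1) (hδ : δ = 1 ∨ δ = -1)
    (h1 : s1.p = ε ∧ s1.q = ε) (h4 : s4.p = δ ∧ s4.q = 4 * δ) :
    DifOff (otube t 3) (cabT t) s1 t s4 :=
  (difOff_rep ((cabT t).signRep s1 σ1 hε (by simp [σ1, h1]) (by simp [σ1, h1]))
    fun _ => mem_cab_of_otube (by norm_num)).trans <| DifOff.trans ⟨dif t, dif_ie t⟩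
      (difOff_rep (t.signRep s4 σ4 hδ (by simp [σ4, h4]) (by simp [σ4, h4, mul_comm]))
        fun _ => mem_Ext_of_otube three_pos).symm

/-! ### reversing the longitude -/

/-- reversal of the longitude -/
def fl : (Circle × ℂ) ≃ₘ^∞⟮IT, IT⟯ (Circle × ℂ) := coreD (-1) 1 0 (.inr rfl) (.inl rfl)

theorem fl_apply (v : Circle × ℂ) : fl v = (v.1⁻¹, v.2) := by
  simp [fl, coreD_apply, mon, norm_mul_dir]

/-- the tube with the longitude reversed -/
def flipT (t : Tube) : Tube := ⟨t.τ ∘ fl, ld_comp t.ld fl.isLocalDiffeomorph, t.inj.comp fl.injective⟩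

theorem flipT_τ (t : Tube) (v : Circle × ℂ) : (flipT t).τ v = t.τ (v.1⁻¹, v.2) :=
  congrArg t.τ (fl_apply v)

theorem image_flipT (t : Tube) (P : ℂ → Prop) : (flipT t).τ '' {v | P v.2} = t.τ '' {v | P v.2} := by
  ext x
  constructor <;> rintro ⟨v, hv, rfl⟩
  · exact ⟨(v.1⁻¹, v.2), hv, (flipT_τ t v).symm⟩
  · exact ⟨(v.1⁻¹, v.2), hv, by rw [flipT_τ, inv_inv]⟩

theorem otube_flipT (t : Tube) (r : ℝ) : otube (flipT t) r = otube t r := image_flipT t (‖·‖ < r)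

theorem flipT_Ext (t : Tube) : (flipT t).Ext = t.Ext := by
  have e : ∀ u : Tube, u.thick.core = u.τ '' {v | v.2 = 0} := fun u =>
    congrArg (u.τ '' ·) (Set.ext fun v => ⟨fun h => h.2, fun h => ⟨trivial, h⟩⟩)
  exact Opens.ext (congrArg compl ((e _).trans ((image_flipT t (· = 0)).trans (e _).symm)))

/-- the opposite slope -/
def negS (σ : FillingData) : FillingData := ⟨σ.p, -σ.q, -σ.a, σ.b, by linear_combination σ.det⟩

/-- the filling of the reversed tube along the opposite slope -/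
def flipRep (t : Tube) (σ : FillingData) : Tube.Rep (flipT t) t (negS σ) σ where
  ψ := fl
  ld := fl.isLocalDiffeomorph
  inj := fl.injective
  zero := mon_eq_zero _ _ _ _
  surj u := fl.surjective _
  ext := flipT_Ext t
  rel z hz := by
    show t.τ (mon 0 (-1) 1 0 _) = t.τ (mon _ _ _ _ (mon 0 (-1) 1 0 z))
    rw [mon_mon _ _ _ _ _ _ _ _ hz, mon_mon _ _ _ _ _ _ _ _ hz]
    simp [negS]

/-- the knot datum with the longitude reversed -/
def flip (k : KD) : KD where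
  toTube := flipT k.toTube
  θ x := thK k x
  smθ x := (contMDiffAt_thK k ((flipT_Ext _).le x.2)).comp x contMDiff_subtype_val.contMDiffAt
  θτ a := by
    show thK k ((flipT k.toTube).τ a) = _
    rw [flipT_τ, thK_τ k (v := (a.1.1⁻¹, a.1.2)) a.2]

theorem flip_toTube (k : KD) : (flip k).toTube = flipT k.toTube := rfl

/-- CABLE, the other sign: the (2,-1)-cable is `flip (cable (flip k))`, slopes `-1/1` and `-1/4` -/
theorem exists_dif_neg (t : Tube) {s1 s4 : FillingData} {ε δ : ℤ} (hε : ε = 1 ∨ ε = -1)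
    (hδ : δ = 1 ∨ δ = -1) (h1 : s1.p = ε ∧ s1.q = -ε) (h4 : s4.p = δ ∧ s4.q = -4 * δ) :
    DifOff (otube t 3) (flipT (cabT (flipT t))) s1 t s4 := by
  have h := exists_dif (flipT t) (s1 := negS s1) (s4 := negS s4) hε hδ
    (by simp [negS, h1]) (by simp [negS, h4])
  have m : ∀ x ∉ otube t 3, x ∈ (cabT (flipT t)).Ext := fun x hx =>
    mem_cab_of_otube (r := 3) (by norm_num) (by rwa [otube_flipT])
  rw [otube_flipT] at h
  exact (difOff_rep ((flipT (cabT (flipT t))).signRep s1 (negS (negS s1)) (ε := 1) (.inl rfl)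
    (by simp [negS]) (by simp [negS])) fun x hx => (flipT_Ext _).ge (m x hx)).trans <|
    (difOff_rep (flipRep _ _) m).trans <| h.trans
      (difOff_rep (flipRep t s4) fun _ => mem_Ext_of_otube three_pos)

end Crest.Agent.X212.Cab39
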